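import Mathlib

namespace Vale.Agent.Lib.P174

universe u

/-- The exponent-sum homomorphism from `G * F_n` to `ℤ^n`: it kills `G` and sends `x_j` to `e_j`. -/
def exponentSum (G : Type u) [Group G] (n : ℕ) :
    Monoid.Coprod G (FreeGroup (Fin n)) →* Multiplicative (Fin n → ℤ) :=
  Monoid.Coprod.lift 1 (FreeGroup.lift fun j => Multiplicative.ofAdd (Pi.single j 1))

/-- The exponent-sum matrix of a system `w_1, ..., w_m` in `G * F_n`. -/
def exponentMatrix {G : Type u} [Group G] {m n : ℕ}
    (w : Fin m → Monoid.Coprod G (FreeGroup (Fin n))) : Matrix (Fin m) (Fin n) ℤ :=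
  Matrix.of fun i j => Multiplicative.toAdd (exponentSum G n (w i)) j

/-- A system is nonsingular if its exponent-sum matrix has rank `m` over `ℚ`. -/
def IsNonsingular {G : Type u} [Group G] {m n : ℕ}
    (w : Fin m → Monoid.Coprod G (FreeGroup (Fin n))) : Prop :=
  ((exponentMatrix w).map (Int.cast : ℤ → ℚ)).rank = m

/-- A system is solvable over `G` if `G` injects into `(G * F_n) / ⟨⟨w_1, ..., w_m⟩⟩`. -/
def IsSolvableOver {G : Type u} [Group G] {m n : ℕ}
    (w : Fin m → Monoid.Coprod G (FreeGroup (Fin n))) : Prop :=
  Function.Injective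
    ((QuotientGroup.mk' (Subgroup.normalClosure (Set.range w))).comp
      (Monoid.Coprod.inl : G →* Monoid.Coprod G (FreeGroup (Fin n))))

/-- Howie's property of a group: every nonsingular finite system over it is solvable over it. -/
def HowieProperty (G : Type u) [Group G] : Prop :=
  ∀ (m n : ℕ) (w : Fin m → Monoid.Coprod G (FreeGroup (Fin n))),
    IsNonsingular w → IsSolvableOver w

/-- Mod `p` version: every finite system over `G` whose exponent-sum matrix has rank `m` modulo
the prime `p` is solvable over `G`. -/
def HowieModP (p : ℕ) [Fact p.Prime] (G : Type u) [Group G] : Prop :=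
  ∀ (m n : ℕ) (w : Fin m → Monoid.Coprod G (FreeGroup (Fin n))),
    ((exponentMatrix w).map (Int.cast : ℤ → ZMod p)).rank = m → IsSolvableOver w

/-- A group is locally indicable if every nontrivial finitely generated subgroup maps onto `ℤ`. -/
def IsLocallyIndicable (Q : Type u) [Group Q] : Prop :=
  ∀ S : Subgroup Q, S.FG → S ≠ ⊥ → ∃ f : S →* Multiplicative ℤ, Function.Surjective f

end Vale.Agent.Lib.P174
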