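import Mathlib
import Vale.Agent.Lib.P174.Defs

open scoped Classical
open Polynomial

namespace Vale.Agent.Lib.P174

universe u

/-- letters: coefficients or variables with a sign -/
abbrev Letter (C : Type u) (E : Type) := C ⊕ (E × Bool)

section basic

variable {C : Type u} [Group C] {E : Type}

/-- value of a letter in the free product -/
def lval : Letter C E → Monoid.Coprod C (FreeGroup E)
  | .inl c => Monoid.Coprod.inl c
  | .inr (e, true) => Monoid.Coprod.inr (FreeGroup.of e)
  | .inr (e, false) => (Monoid.Coprod.inr (FreeGroup.of e))⁻¹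

/-- value of a word in the free product -/
def wval (w : List (Letter C E)) : Monoid.Coprod C (FreeGroup E) := (w.map lval).prod

@[simp] lemma wval_nil : wval ([] : List (Letter C E)) = 1 := rfl
@[simp] lemma wval_cons (l : Letter C E) (w : List (Letter C E)) :
    wval (l :: w) = lval l * wval w := by simp [wval]
lemma wval_append (w w' : List (Letter C E)) : wval (w ++ w') = wval w * wval w' := by
  simp [wval]

/-- number of nontrivial coefficient letters of a letter -/
noncomputable def lcnt : Letter C E → ℕ
  | .inl c => if c = 1 then 0 else 1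
  | .inr _ => 0

/-- number of nontrivial coefficient letters of a word -/
noncomputable def cnt (w : List (Letter C E)) : ℕ := (w.map lcnt).sum

@[simp] lemma cnt_nil : cnt ([] : List (Letter C E)) = 0 := rfl
@[simp] lemma cnt_cons (l : Letter C E) (w : List (Letter C E)) :
    cnt (l :: w) = lcnt l + cnt w := by simp [cnt]

/-- every element of the free product is the value of a word -/
lemma exists_word (x : Monoid.Coprod C (FreeGroup E)) :
    ∃ w : List (Letter C E), wval w = x := by
  induction x using Monoid.Coprod.induction_on with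
  | inl c => exact ⟨[.inl c], by simp [lval]⟩
  | inr f =>
    induction f using FreeGroup.induction_on with
    | C1 => exact ⟨[], by simp⟩
    | of e => exact ⟨[.inr (e, true)], by simp [lval]⟩
    | inv_of e _ => exact ⟨[.inr (e, false)], by simp [lval]⟩
    | mul a b ha hb =>
      obtain ⟨w, hw⟩ := ha
      obtain ⟨w', hw'⟩ := hb
      exact ⟨w ++ w', by simp [wval_append, hw, hw']⟩
  | mul a b ha hb =>
    obtain ⟨w, hw⟩ := ha
    obtain ⟨w', hw'⟩ := hb
    exact ⟨w ++ w', by simp [wval_append, hw, hw']⟩

/-- a term of an expression: a conjugating word, a relator index and a sign -/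
abbrev Term (C : Type u) (E I : Type) := List (Letter C E) × I × Bool

variable {I : Type}

/-- value of a term -/
def tval (R : I → List (Letter C E)) (t : Term C E I) : Monoid.Coprod C (FreeGroup E) :=
  wval t.1 * (if t.2.2 then wval (R t.2.1) else (wval (R t.2.1))⁻¹) * (wval t.1)⁻¹

/-- value of an expression -/
def eval (R : I → List (Letter C E)) (T : List (Term C E I)) : Monoid.Coprod C (FreeGroup E) :=
  (T.map (tval R)).prod

/-- complexity of an expression -/
noncomputable def omega (R : I → List (Letter C E)) (T : List (Term C E I)) : ℕ :=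
  (T.map fun t => cnt t.1 + cnt (R t.2.1)).sum

lemma exists_expr (R : I → List (Letter C E)) (x : Monoid.Coprod C (FreeGroup E))
    (hx : x ∈ Subgroup.normalClosure (Set.range fun i => wval (R i))) :
    ∃ T : List (Term C E I), eval R T = x := by
  induction hx using Subgroup.closure_induction with
  | mem y hy =>
    obtain ⟨_, ⟨i, rfl⟩, hconj⟩ := Group.mem_conjugatesOfSet_iff.mp hy
    obtain ⟨c, rfl⟩ := isConj_iff.mp hconj
    obtain ⟨u, rfl⟩ := exists_word c
    exact ⟨[(u, i, true)], by simp [eval, tval]⟩
  | one => exact ⟨[], by simp [eval]⟩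
  | mul a b _ _ ha hb =>
    obtain ⟨T, hT⟩ := ha
    obtain ⟨T', hT'⟩ := hb
    exact ⟨T ++ T', by simp [eval, hT.symm, hT'.symm]⟩
  | inv a _ ha =>
    obtain ⟨T, hT⟩ := ha
    refine ⟨(T.map fun t => (t.1, t.2.1, !t.2.2)).reverse, ?_⟩
    rw [← hT]
    clear hT
    induction T with
    | nil => simp [eval]
    | cons t T ih =>
      have h1 : eval R (t :: T) = tval R t * eval R T := by simp [eval]
      rw [h1, mul_inv_rev, ← ih]
      obtain ⟨u, i, s⟩ := t
      cases s <;> simp [eval, tval, mul_assoc]

end basic

section induced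

variable {C : Type u} [Group C] (L : Subgroup C)

/-- transversal of `L` in `C` sending the base coset to `1` -/
noncomputable def transv (q : C ⧸ L) : C := if q = ((1 : C) : C ⧸ L) then 1 else q.out

lemma transv_mk (q : C ⧸ L) : ((transv L q : C) : C ⧸ L) = q := by
  unfold transv
  split_ifs with h
  · rw [h]
  · exact QuotientGroup.out_eq' q

lemma transv_base : transv L ((1 : C) : C ⧸ L) = 1 := by simp [transv]

lemma lam_mem (c : C) (q : C ⧸ L) : (transv L (c • q))⁻¹ * c * transv L q ∈ L := by
  have h1 : ((c * transv L q : C) : C ⧸ L) = c • q := by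
    conv_rhs => rw [← transv_mk L q]
    rfl
  have h2 : ((transv L (c • q) : C) : C ⧸ L) = ((c * transv L q : C) : C ⧸ L) := by
    rw [transv_mk, h1]
  have := QuotientGroup.eq.mp h2
  rwa [mul_assoc]

/-- the cocycle of the induced action -/
noncomputable def lam (c : C) (q : C ⧸ L) : L := ⟨(transv L (c • q))⁻¹ * c * transv L q, lam_mem L c q⟩

lemma lam_one (q : C ⧸ L) : lam L 1 q = 1 := by
  apply Subtype.ext
  simp [lam]

lemma lam_mul (c d : C) (q : C ⧸ L) : lam L (c * d) q = lam L c (d • q) * lam L d q := by
  apply Subtype.ext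
  simp [lam, mul_smul, mul_assoc]

/-- the induced action -/
@[instance_reducible] noncomputable def inducedAction (X : Type*) [MulAction L X] : MulAction C ((C ⧸ L) × X) where
  smul c y := (c • y.1, lam L c y.1 • y.2)
  one_smul y := by
    apply Prod.ext
    · exact one_smul C y.1
    · change lam L 1 y.1 • y.2 = y.2
      rw [lam_one, one_smul]
  mul_smul c d y := by
    apply Prod.ext
    · exact mul_smul c d y.1
    · change lam L (c * d) y.1 • y.2 = lam L c (d • y.1) • lam L d y.1 • y.2
      rw [lam_mul, mul_smul]

/-- extend a permutation of `X` to the induced set, acting only on the base coset -/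
noncomputable def extendPerm {X : Type*} (s : Equiv.Perm X) : Equiv.Perm ((C ⧸ L) × X) where
  toFun y := if y.1 = ((1 : C) : C ⧸ L) then (y.1, s y.2) else y
  invFun y := if y.1 = ((1 : C) : C ⧸ L) then (y.1, s.symm y.2) else y
  left_inv y := by
    rcases y with ⟨q, x⟩
    by_cases h : q = ((1 : C) : C ⧸ L) <;> simp [h]
  right_inv y := by
    rcases y with ⟨q, x⟩
    by_cases h : q = ((1 : C) : C ⧸ L) <;> simp [h]

variable {E : Type}

/-- the map of free products induced by the inclusion of a subgroup is injective -/
theorem coprod_map_injective :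
    Function.Injective
      (Monoid.Coprod.map L.subtype (MonoidHom.id (FreeGroup E))) := by
  let X := Monoid.Coprod L (FreeGroup E)
  let _ : MulAction L X :=
    { smul := fun l x => Monoid.Coprod.inl l * x
      one_smul := fun x => by
        change Monoid.Coprod.inl (1 : L) * x = x
        simp
      mul_smul := fun a b x => by
        change Monoid.Coprod.inl (a * b) * x = Monoid.Coprod.inl a * (Monoid.Coprod.inl b * x)
        simp [mul_assoc] }
  let _ : MulAction C ((C ⧸ L) × X) := inducedAction L X
  let s : E → Equiv.Perm X := fun e => Equiv.mulLeft (Monoid.Coprod.inr (FreeGroup.of e))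
  let Psi : Monoid.Coprod C (FreeGroup E) →* Equiv.Perm ((C ⧸ L) × X) :=
    Monoid.Coprod.lift (MulAction.toPermHom C ((C ⧸ L) × X))
      (FreeGroup.lift fun e => extendPerm L (s e))
  have key : ∀ x : X, ∀ y : X,
      Psi (Monoid.Coprod.map L.subtype (MonoidHom.id (FreeGroup E)) x)
        (((1 : C) : C ⧸ L), y) = (((1 : C) : C ⧸ L), x * y) := by
    intro x
    induction x using Monoid.Coprod.induction_on with
    | inl l =>
      intro y
      have h1 : l.1 • ((1 : C) : C ⧸ L) = ((1 : C) : C ⧸ L) := by
        change ((l.1 * 1 : C) : C ⧸ L) = _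
        rw [mul_one]
        exact QuotientGroup.eq.mpr (by simpa using l.2)
      have h2 : lam L l.1 ((1 : C) : C ⧸ L) = l := by
        apply Subtype.ext
        simp [lam, h1, transv_base]
      simp only [Monoid.Coprod.map_apply_inl, Monoid.Coprod.lift_apply_inl, Psi]
      change (l.1 • ((1 : C) : C ⧸ L), lam L l.1 ((1 : C) : C ⧸ L) • y) = _
      rw [h1, h2]
      rfl
    | inr f =>
      induction f using FreeGroup.induction_on with
      | C1 => intro y; simp
      | of e =>
        intro y
        simp only [Monoid.Coprod.map_apply_inr, Monoid.Coprod.lift_apply_inr, Psi,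
          MonoidHom.id_apply, FreeGroup.lift_apply_of]
        simp [extendPerm, s]
      | inv_of e _ =>
        intro y
        simp only [Monoid.Coprod.map_apply_inr, Monoid.Coprod.lift_apply_inr, Psi,
          MonoidHom.id_apply, map_inv, FreeGroup.lift_apply_of]
        change (extendPerm L (s e)).symm _ = _
        simp [extendPerm, s, Equiv.mulLeft]
      | mul a b ha hb =>
        intro y
        have : Monoid.Coprod.inr (a * b) = (Monoid.Coprod.inr a * Monoid.Coprod.inr b : X) := by
          simp
        rw [this, map_mul, map_mul, Equiv.Perm.mul_apply, hb, ha, mul_assoc]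
    | mul a b ha hb =>
      intro y
      rw [map_mul, map_mul, Equiv.Perm.mul_apply, hb, ha, mul_assoc]
  intro x x' h
  have h1 := key x 1
  have h2 := key x' 1
  rw [h] at h1
  rw [h1] at h2
  simpa using h2

end induced

section rowstep

variable (p : ℕ) [Fact p.Prime]

/-- the cyclic shift matrix on `ZMod p` -/
noncomputable def shiftM : Matrix (ZMod p) (ZMod p) (ZMod p) :=
  Matrix.of fun k k' => if k' = k + 1 then 1 else 0

lemma shiftM_pow (n : ℕ) (k k' : ZMod p) :
    ((shiftM p) ^ n) k k' = if k' = k + n then 1 else 0 := by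
  induction n generalizing k' with
  | zero =>
    simp [Matrix.one_apply, eq_comm]
  | succ n ih =>
    rw [pow_succ, Matrix.mul_apply]
    rw [Finset.sum_eq_single (k + n)]
    · rw [ih]
      simp [shiftM, add_assoc]
    · intro b _ hb
      rw [ih]
      simp [hb]
    · simp

lemma shiftM_pow_p : (shiftM p) ^ p = 1 := by
  ext k k'
  rw [shiftM_pow]
  simp [Matrix.one_apply, eq_comm]

variable {I E : Type} [Fintype I] [Fintype E] [DecidableEq I]

theorem rowstep (F : I → E → ZMod p → ZMod p) (B : Matrix E I (ZMod p))
    (hB : (Matrix.of fun i e => ∑ x, F i e x) * B = 1) :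
    ∃ B' : Matrix (E × ZMod p) (I × ZMod p) (ZMod p),
      (Matrix.of fun (a : I × ZMod p) (b : E × ZMod p) => F a.1 b.1 (b.2 - a.2)) * B' = 1 := by
  let H : I → I → ZMod p → ZMod p := fun i j x => ∑ e, F i e x * B e j
  have hH : ∀ i j, ∑ x, H i j x = (1 : Matrix I I (ZMod p)) i j := by
    intro i j
    have := congrFun (congrFun hB i) j
    rw [Matrix.mul_apply] at this
    rw [← this]
    simp only [H, Matrix.of_apply, Finset.sum_mul]
    rw [Finset.sum_comm]
  let Hh : Matrix I I (ZMod p)[X] :=
    Matrix.of fun i j => ∑ x, C (H i j x) * X ^ (x.val)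
  let D := Hh.det
  have hD1 : D.eval 1 = 1 := by
    have h1 := RingHom.map_det (Polynomial.evalRingHom (1 : ZMod p)) Hh
    have h2 : (Polynomial.evalRingHom (1 : ZMod p)).mapMatrix Hh = 1 := by
      ext i j
      simp only [RingHom.mapMatrix_apply, Matrix.map_apply, Hh, Matrix.of_apply]
      rw [map_sum]
      simp only [coe_evalRingHom, eval_mul, eval_C, eval_pow, eval_X, one_pow, mul_one]
      exact hH i j
    rw [h2, Matrix.det_one] at h1
    simpa [D] using h1
  let Gh : Matrix I I (ZMod p)[X] := (D ^ (p - 1)) • Hh.adjugate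
  have hHG : Hh * Gh = (D ^ p) • (1 : Matrix I I (ZMod p)[X]) := by
    have hp : D ^ (p - 1) * D = D ^ p := by
      rw [← pow_succ, Nat.sub_add_cancel (Fact.out : p.Prime).one_le]
    simp only [Gh, Matrix.mul_smul, Matrix.mul_adjugate]
    rw [smul_smul, hp]
  let Phi : (ZMod p)[X] →ₐ[ZMod p] Matrix (ZMod p) (ZMod p) (ZMod p) := aeval (shiftM p)
  have hPhiD : Phi (D ^ p) = 1 := by
    have h1 : D ^ p = expand (ZMod p) p D := (ZMod.expand_card D).symm
    rw [h1]
    simp only [Phi]
    rw [expand_aeval, shiftM_pow_p]
    have h2 : aeval (1 : Matrix (ZMod p) (ZMod p) (ZMod p)) D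
        = algebraMap (ZMod p) _ (D.eval 1) := by
      have := Polynomial.aeval_algebraMap_apply (Matrix (ZMod p) (ZMod p) (ZMod p))
        (1 : ZMod p) D
      simp only [map_one, coe_aeval_eq_eval] at this
      exact this
    rw [h2, hD1, map_one]
  have hPhiH : ∀ i j k k', Phi (Hh i j) k k' = H i j (k' - k) := by
    intro i j k k'
    simp only [Hh, Matrix.of_apply, Phi, map_sum, map_mul, aeval_C, map_pow, aeval_X]
    rw [Matrix.sum_apply]
    simp only [← Algebra.smul_def, Matrix.smul_apply, smul_eq_mul, shiftM_pow,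
      ZMod.natCast_zmod_val]
    rw [Finset.sum_eq_single (k' - k)]
    · simp
    · intro b _ hb
      have : k' ≠ k + b := by
        intro h
        apply hb
        rw [h]
        ring
      simp [this]
    · simp
  refine ⟨Matrix.of fun b a => ∑ i'', B b.1 i'' * Phi (Gh i'' a.1) b.2 a.2, ?_⟩
  ext ⟨i, k⟩ ⟨i', k'⟩
  rw [Matrix.mul_apply, Fintype.sum_prod_type]
  simp only [Matrix.of_apply]
  have step1 : ∀ e : E, ∀ l : ZMod p, F i e (l - k) * ∑ i'', B e i'' * Phi (Gh i'' i') l k'
      = ∑ i'', (F i e (l - k) * B e i'') * Phi (Gh i'' i') l k' := by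
    intro e l
    rw [Finset.mul_sum]
    simp only [mul_assoc]
  simp only [step1]
  have step2 : ∑ e, ∑ l, ∑ i'', (F i e (l - k) * B e i'') * Phi (Gh i'' i') l k'
      = ∑ i'', ∑ l, H i i'' (l - k) * Phi (Gh i'' i') l k' := by
    simp only [H, Finset.sum_mul]
    have h1 : ∑ e, ∑ l, ∑ i'', (F i e (l - k) * B e i'') * Phi (Gh i'' i') l k'
        = ∑ e, ∑ i'', ∑ l, (F i e (l - k) * B e i'') * Phi (Gh i'' i') l k' :=
      Finset.sum_congr rfl (fun e _ => Finset.sum_comm)
    rw [h1, Finset.sum_comm]
    exact Finset.sum_congr rfl (fun i'' _ => Finset.sum_comm)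
  rw [step2]
  have step3 : ∀ i'' : I, ∑ l, H i i'' (l - k) * Phi (Gh i'' i') l k'
      = (Phi (Hh i i'' * Gh i'' i')) k k' := by
    intro i''
    rw [map_mul, Matrix.mul_apply]
    simp only [hPhiH]
  simp only [step3]
  rw [← Matrix.sum_apply, ← map_sum]
  have step4 : ∑ i'', Hh i i'' * Gh i'' i' = (Hh * Gh) i i' := by
    rw [Matrix.mul_apply]
  rw [step4, hHG]
  by_cases hi : i = i'
  · subst hi
    simp only [Matrix.smul_apply, Matrix.one_apply_eq, smul_eq_mul, mul_one]
    rw [hPhiD]
    simp [Matrix.one_apply, Prod.ext_iff]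
  · simp only [Matrix.smul_apply, Matrix.one_apply_ne hi, smul_zero, map_zero]
    simp [Matrix.one_apply, Prod.ext_iff, hi]

end rowstep

end Vale.Agent.Lib.P174
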