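import Mathlib
import Vale.Agent.Lib.P174.Words

open scoped Classical

namespace Vale.Agent.Lib.P174

universe u

section step

variable {p : ℕ} [Fact p.Prime] {L : Type u} [Group L] {E : Type}
variable (φ : L →* Multiplicative (ZMod p)) (c : E → ZMod p)

/-- how far a letter moves the level -/
def adv : Letter L E → ZMod p
  | .inl l => Multiplicative.toAdd (φ l)
  | .inr (e, true) => c e
  | .inr (e, false) => - c e

/-- how far a word moves the level -/
def lev (w : List (Letter L E)) : ZMod p := (w.map (adv φ c)).sum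

@[simp] lemma lev_nil : lev φ c [] = 0 := rfl
@[simp] lemma lev_cons (l : Letter L E) (w : List (Letter L E)) :
    lev φ c (l :: w) = adv φ c l + lev φ c w := by simp [lev]

variable {φ} (τ : ZMod p → L) (hτ : ∀ k, φ (τ k) = Multiplicative.ofAdd k)

include hτ in
lemma stepS_mem (k : ZMod p) (l : L) :
    (τ (k + Multiplicative.toAdd (φ l)))⁻¹ * l * τ k ∈ φ.ker := by
  rw [MonoidHom.mem_ker, map_mul, map_mul, map_inv, hτ, hτ]
  apply Multiplicative.toAdd.injective
  simp

/-- the new coefficient for a coefficient letter at level `k` -/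
def stepS (k : ZMod p) (l : L) : φ.ker :=
  ⟨(τ (k + Multiplicative.toAdd (φ l)))⁻¹ * l * τ k, stepS_mem τ hτ k l⟩

lemma stepS_one (k : ZMod p) : stepS τ hτ k (1 : L) = 1 := by
  apply Subtype.ext
  simp [stepS]

lemma stepS_mul (k : ZMod p) (l l' : L) :
    stepS τ hτ k (l * l') = stepS τ hτ (k + Multiplicative.toAdd (φ l')) l * stepS τ hτ k l' := by
  apply Subtype.ext
  have h : k + Multiplicative.toAdd (φ (l * l'))
      = k + Multiplicative.toAdd (φ l') + Multiplicative.toAdd (φ l) := by
    rw [map_mul, toAdd_mul]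
    ring
  simp only [stepS, Subgroup.coe_mul]
  rw [h]
  simp [mul_assoc]

/-- the level space -/
abbrev LevelSpace (φ : L →* Multiplicative (ZMod p)) (E : Type) :=
  ZMod p × Monoid.Coprod φ.ker (FreeGroup (E × ZMod p))

/-- the coefficient action on the level space -/
@[instance_reducible] def stepAction : MulAction L (LevelSpace φ E) where
  smul l y := (y.1 + Multiplicative.toAdd (φ l), Monoid.Coprod.inl (stepS τ hτ y.1 l) * y.2)
  one_smul y := by
    apply Prod.ext
    · change y.1 + Multiplicative.toAdd (φ 1) = y.1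
      simp
    · change Monoid.Coprod.inl (stepS τ hτ y.1 1) * y.2 = y.2
      rw [stepS_one]
      simp
  mul_smul a b y := by
    apply Prod.ext
    · change y.1 + Multiplicative.toAdd (φ (a * b))
        = y.1 + Multiplicative.toAdd (φ b) + Multiplicative.toAdd (φ a)
      rw [map_mul, toAdd_mul]
      ring
    · change Monoid.Coprod.inl (stepS τ hτ y.1 (a * b)) * y.2
        = Monoid.Coprod.inl (stepS τ hτ (y.1 + Multiplicative.toAdd (φ b)) a)
          * (Monoid.Coprod.inl (stepS τ hτ y.1 b) * y.2)
      rw [stepS_mul, map_mul, mul_assoc]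

/-- the permutation of the level space given by a variable -/
def varPerm (e : E) : Equiv.Perm (LevelSpace φ E) where
  toFun y := (y.1 + c e, Monoid.Coprod.inr (FreeGroup.of (e, y.1)) * y.2)
  invFun y := (y.1 - c e, (Monoid.Coprod.inr (FreeGroup.of (e, y.1 - c e)))⁻¹ * y.2)
  left_inv y := by
    apply Prod.ext <;> simp
  right_inv y := by
    apply Prod.ext <;> simp

/-- the homomorphism of the free product into the permutations of the level space -/
noncomputable def stepPsi : Monoid.Coprod L (FreeGroup E) →* Equiv.Perm (LevelSpace φ E) :=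
  Monoid.Coprod.lift (@MulAction.toPermHom L (LevelSpace φ E) _ (stepAction τ hτ))
    (FreeGroup.lift (varPerm c))

/-- the new letter for a letter read at level `k` -/
def nl (k : ZMod p) : Letter L E → Letter φ.ker (E × ZMod p)
  | .inl l => .inl (stepS τ hτ k l)
  | .inr (e, true) => .inr ((e, k), true)
  | .inr (e, false) => .inr ((e, k - c e), false)

/-- the new word for a word read at level `k` -/
def psi (k : ZMod p) : List (Letter L E) → List (Letter φ.ker (E × ZMod p))
  | [] => []
  | l :: w => nl c τ hτ (k + lev φ c w) l :: psi k w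

lemma stepPsi_lval (l : Letter L E) (y : LevelSpace φ E) :
    stepPsi c τ hτ (lval l) y
      = (y.1 + adv φ c l, lval (nl c τ hτ y.1 l) * y.2) := by
  rcases l with l | ⟨e, b⟩
  · simp only [lval, stepPsi, Monoid.Coprod.lift_apply_inl]
    rfl
  · cases b
    · simp only [lval, stepPsi, map_inv, Monoid.Coprod.lift_apply_inr, FreeGroup.lift_apply_of]
      apply Prod.ext
      · change y.1 - c e = _
        simp [adv, sub_eq_add_neg]
      · change (Monoid.Coprod.inr (FreeGroup.of (e, y.1 - c e)))⁻¹ * y.2 = _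
        simp [nl]
    · simp only [lval, stepPsi, Monoid.Coprod.lift_apply_inr, FreeGroup.lift_apply_of]
      apply Prod.ext
      · change y.1 + c e = _
        simp [adv]
      · change Monoid.Coprod.inr (FreeGroup.of (e, y.1)) * y.2 = _
        simp [nl]

lemma stepPsi_wval (w : List (Letter L E)) (y : LevelSpace φ E) :
    stepPsi c τ hτ (wval w) y
      = (y.1 + lev φ c w, wval (psi c τ hτ y.1 w) * y.2) := by
  induction w with
  | nil => simp [psi]
  | cons l w ih =>
    rw [wval_cons, map_mul, Equiv.Perm.mul_apply, ih, stepPsi_lval]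
    apply Prod.ext
    · simp only [lev_cons]
      ring
    · simp only [psi, wval_cons, mul_assoc]

lemma stepPsi_wval_inv (w : List (Letter L E)) (y : LevelSpace φ E) :
    (stepPsi c τ hτ (wval w))⁻¹ y
      = (y.1 - lev φ c w, (wval (psi c τ hτ (y.1 - lev φ c w) w))⁻¹ * y.2) := by
  rw [Equiv.Perm.inv_eq_iff_eq, stepPsi_wval]
  apply Prod.ext
  · simp
  · simp

variable {I : Type}

/-- the new term for a term at base level `k` -/
def newT (k : ZMod p) (t : Term L E I) : Term φ.ker (E × ZMod p) (I × ZMod p) :=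
  (psi c τ hτ (k - lev φ c t.1) t.1, (t.2.1, k - lev φ c t.1), t.2.2)

/-- the new relators -/
def newR (R : I → List (Letter L E)) (a : I × ZMod p) : List (Letter φ.ker (E × ZMod p)) :=
  psi c τ hτ a.2 (R a.1)

lemma stepPsi_tval (R : I → List (Letter L E)) (hR : ∀ i, lev φ c (R i) = 0)
    (t : Term L E I) (y : LevelSpace φ E) :
    stepPsi c τ hτ (tval R t) y
      = (y.1, tval (newR c τ hτ R) (newT c τ hτ y.1 t) * y.2) := by
  obtain ⟨u, i, s⟩ := t
  have hmid : ∀ z : LevelSpace φ E, stepPsi c τ hτ (wval (R i)) z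
      = (z.1, wval (psi c τ hτ z.1 (R i)) * z.2) := by
    intro z
    rw [stepPsi_wval, hR, add_zero]
  have hmid' : ∀ z : LevelSpace φ E, (stepPsi c τ hτ (wval (R i)))⁻¹ z
      = (z.1, (wval (psi c τ hτ z.1 (R i)))⁻¹ * z.2) := by
    intro z
    rw [stepPsi_wval_inv, hR, sub_zero]
  simp only [tval]
  rw [map_mul, map_mul, map_inv, Equiv.Perm.mul_apply, Equiv.Perm.mul_apply, stepPsi_wval_inv]
  cases s
  · simp only [Bool.false_eq_true, if_false, map_inv]
    rw [hmid', stepPsi_wval]
    apply Prod.ext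
    · simp
    · simp [newT, newR, mul_assoc]
  · simp only [if_true]
    rw [hmid, stepPsi_wval]
    apply Prod.ext
    · simp
    · simp [newT, newR, mul_assoc]

lemma stepPsi_eval (R : I → List (Letter L E)) (hR : ∀ i, lev φ c (R i) = 0)
    (T : List (Term L E I)) (y : LevelSpace φ E) :
    stepPsi c τ hτ (eval R T) y
      = (y.1, eval (newR c τ hτ R) (T.map (newT c τ hτ y.1)) * y.2) := by
  induction T with
  | nil => simp [eval]
  | cons t T ih =>
    have h1 : eval R (t :: T) = tval R t * eval R T := by simp [eval]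
    have h2 : eval (newR c τ hτ R) ((t :: T).map (newT c τ hτ y.1))
        = tval (newR c τ hτ R) (newT c τ hτ y.1 t)
          * eval (newR c τ hτ R) (T.map (newT c τ hτ y.1)) := by simp [eval]
    rw [h1, h2, map_mul, Equiv.Perm.mul_apply, ih, stepPsi_tval c τ hτ R hR]
    simp [mul_assoc]

/-- the key transfer: an equation in the old free product gives one in the new free product -/
lemma step_value (R : I → List (Letter L E)) (hR : ∀ i, lev φ c (R i) = 0)
    (T : List (Term L E I)) (g : L) (hT : eval R T = Monoid.Coprod.inl g) :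
    Multiplicative.toAdd (φ g) = 0 ∧
    eval (newR c τ hτ R) (T.map (newT c τ hτ 0)) = Monoid.Coprod.inl (stepS τ hτ 0 g) := by
  have h1 := stepPsi_eval c τ hτ R hR T (0, 1)
  rw [hT] at h1
  have h2 : stepPsi c τ hτ (Monoid.Coprod.inl g) ((0, 1) : LevelSpace φ E)
      = (0 + Multiplicative.toAdd (φ g), Monoid.Coprod.inl (stepS τ hτ 0 g) * 1) := rfl
  rw [h2] at h1
  have h3 := congrArg Prod.fst h1
  have h4 := congrArg Prod.snd h1
  simp only [zero_add, mul_one] at h3 h4
  exact ⟨h3, h4.symm⟩

/-! counting -/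

lemma lcnt_nl (k : ZMod p) (l : Letter L E) : lcnt (nl c τ hτ k l) ≤ lcnt l := by
  rcases l with l | ⟨e, b⟩
  · by_cases h : l = 1
    · subst h
      simp [nl, lcnt, stepS_one]
    · simp only [nl, lcnt, h, if_false]
      split_ifs <;> omega
  · cases b <;> simp [nl, lcnt]

lemma cnt_psi (k : ZMod p) (w : List (Letter L E)) : cnt (psi c τ hτ k w) ≤ cnt w := by
  induction w with
  | nil => simp [psi]
  | cons l w ih =>
    simp only [psi, cnt_cons]
    exact add_le_add (lcnt_nl c τ hτ _ l) ih

lemma exists_level_word (l0 : L) (hl0 : l0 ≠ 1) (φ : L →* Multiplicative (ZMod p))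
    (w : List (Letter L E)) (hw : (Sum.inl l0 : Letter L E) ∈ w) (k : ZMod p) :
    ∃ k₀ : ZMod p, ∀ (τ : ZMod p → L) (hτ : ∀ k, φ (τ k) = Multiplicative.ofAdd k),
      stepS τ hτ k₀ l0 = 1 → cnt (psi c τ hτ k w) < cnt w := by
  induction w with
  | nil => simp at hw
  | cons l w ih =>
    by_cases hl : l = Sum.inl l0
    · subst hl
      refine ⟨k + lev φ c w, fun τ hτ h => ?_⟩
      simp only [psi, cnt_cons, nl, h]
      have h1 : lcnt (Sum.inl (1 : φ.ker) : Letter φ.ker (E × ZMod p)) = 0 := by simp [lcnt]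
      have h2 : lcnt (Sum.inl l0 : Letter L E) = 1 := by simp [lcnt, hl0]
      have h3 := cnt_psi c τ hτ k w
      omega
    · have hw' : (Sum.inl l0 : Letter L E) ∈ w := by
        rcases List.mem_cons.mp hw with h | h
        · exact absurd h.symm hl
        · exact h
      obtain ⟨k₀, hk₀⟩ := ih hw'
      refine ⟨k₀, fun τ hτ h => ?_⟩
      simp only [psi, cnt_cons]
      have h1 := lcnt_nl c τ hτ (k + lev φ c w) l
      have h2 := hk₀ τ hτ h
      omega

lemma omega_newT_le (R : I → List (Letter L E)) (T : List (Term L E I)) (k : ZMod p) :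
    omega (newR c τ hτ R) (T.map (newT c τ hτ k)) ≤ omega R T := by
  induction T with
  | nil => simp [omega]
  | cons t T ih =>
    simp only [omega, List.map_cons, List.sum_cons] at ih ⊢
    refine add_le_add (add_le_add (cnt_psi c τ hτ _ _) (cnt_psi c τ hτ _ _)) ih

lemma exists_level_expr (l0 : L) (hl0 : l0 ≠ 1) (φ : L →* Multiplicative (ZMod p))
    (R : I → List (Letter L E)) (T : List (Term L E I))
    (hT : ∃ t ∈ T, (Sum.inl l0 : Letter L E) ∈ t.1 ∨ (Sum.inl l0 : Letter L E) ∈ R t.2.1) :
    ∃ k₀ : ZMod p, ∀ (τ : ZMod p → L) (hτ : ∀ k, φ (τ k) = Multiplicative.ofAdd k),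
      stepS τ hτ k₀ l0 = 1 →
        omega (newR c τ hτ R) (T.map (newT c τ hτ 0)) < omega R T := by
  induction T with
  | nil => simp at hT
  | cons t T ih =>
    by_cases ht : (Sum.inl l0 : Letter L E) ∈ t.1 ∨ (Sum.inl l0 : Letter L E) ∈ R t.2.1
    · rcases ht with ht | ht
      · obtain ⟨k₀, hk₀⟩ := exists_level_word c l0 hl0 φ t.1 ht (0 - lev φ c t.1)
        refine ⟨k₀, fun τ hτ h => ?_⟩
        have h1 := hk₀ τ hτ h
        have h2 := omega_newT_le c τ hτ R T 0
        have h3 := cnt_psi c τ hτ (0 - lev φ c t.1) (R t.2.1)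
        simp only [omega, List.map_cons, List.sum_cons, newT, newR] at h2 ⊢
        omega
      · obtain ⟨k₀, hk₀⟩ := exists_level_word c l0 hl0 φ (R t.2.1) ht (0 - lev φ c t.1)
        refine ⟨k₀, fun τ hτ h => ?_⟩
        have h1 := hk₀ τ hτ h
        have h2 := omega_newT_le c τ hτ R T 0
        have h3 := cnt_psi c τ hτ (0 - lev φ c t.1) t.1
        simp only [omega, List.map_cons, List.sum_cons, newT, newR] at h2 ⊢
        omega
    · have hT' : ∃ t ∈ T, (Sum.inl l0 : Letter L E) ∈ t.1 ∨ (Sum.inl l0 : Letter L E) ∈ R t.2.1 := by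
        obtain ⟨t', ht', h⟩ := hT
        rcases List.mem_cons.mp ht' with rfl | h'
        · exact absurd h ht
        · exact ⟨t', h', h⟩
      obtain ⟨k₀, hk₀⟩ := ih hT'
      refine ⟨k₀, fun τ hτ h => ?_⟩
      have h1 := hk₀ τ hτ h
      have h2 := cnt_psi c τ hτ (0 - lev φ c t.1) t.1
      have h3 := cnt_psi c τ hτ (0 - lev φ c t.1) (R t.2.1)
      simp only [omega, List.map_cons, List.sum_cons, newT, newR] at h1 ⊢
      omega

end step

end Vale.Agent.Lib.P174
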