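import Mathlib
import Vale.Agent.Lib.P174.Step

open scoped Classical

namespace Vale.Agent.Lib.P174

universe u

section exps

variable {C : Type u} [Group C] {E : Type}

/-- the exponent-sum vector of an element of the free product -/
noncomputable def expV : Monoid.Coprod C (FreeGroup E) →* Multiplicative (E → ℤ) :=
  Monoid.Coprod.lift 1
    (FreeGroup.lift fun e => Multiplicative.ofAdd (fun e' => if e' = e then 1 else 0))

lemma expV_inl (c : C) (e : E) :
    Multiplicative.toAdd (expV (Monoid.Coprod.inl c : Monoid.Coprod C (FreeGroup E))) e = 0 := by
  simp [expV]

lemma expV_of (e' e : E) :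
    Multiplicative.toAdd (expV (Monoid.Coprod.inr (FreeGroup.of e') :
      Monoid.Coprod C (FreeGroup E))) e = if e = e' then 1 else 0 := by
  simp [expV]

lemma expV_mul (x y : Monoid.Coprod C (FreeGroup E)) (e : E) :
    Multiplicative.toAdd (expV (x * y)) e
      = Multiplicative.toAdd (expV x) e + Multiplicative.toAdd (expV y) e := by
  simp

lemma expV_inv (x : Monoid.Coprod C (FreeGroup E)) (e : E) :
    Multiplicative.toAdd (expV x⁻¹) e = - Multiplicative.toAdd (expV x) e := by
  simp

/-- the exponent-sum matrix modulo `p` of a family of words -/
noncomputable def rowsMat (p : ℕ) {I : Type} (R : I → List (Letter C E)) :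
    Matrix I E (ZMod p) :=
  Matrix.of fun i e => ((Multiplicative.toAdd (expV (wval (R i))) e : ℤ) : ZMod p)

end exps

section steprows

variable {p : ℕ} [Fact p.Prime] {L : Type u} [Group L] {E : Type}
variable (φ : L →* Multiplicative (ZMod p)) (c : E → ZMod p)

/-- the level-resolved exponent sums of a word -/
noncomputable def levF : List (Letter L E) → E → ZMod p → ZMod p
  | [], _, _ => 0
  | .inl _ :: w, e, x => levF w e x
  | .inr (e', true) :: w, e, x => levF w e x + if e = e' ∧ x = lev φ c w then 1 else 0
  | .inr (e', false) :: w, e, x => levF w e x + if e = e' ∧ x = lev φ c w - c e then -1 else 0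

variable {φ} (τ : ZMod p → L) (hτ : ∀ k, φ (τ k) = Multiplicative.ofAdd k)

lemma exp_psi (k : ZMod p) (w : List (Letter L E)) (e : E) (l : ZMod p) :
    ((Multiplicative.toAdd (expV (wval (psi c τ hτ k w))) (e, l) : ℤ) : ZMod p)
      = levF φ c w e (l - k) := by
  induction w with
  | nil => simp [psi, levF]
  | cons a w ih =>
    rw [psi, wval_cons, expV_mul, Int.cast_add, ih]
    rcases a with a | ⟨e', b⟩
    · simp [nl, lval, levF, expV_inl]
    · cases b
      · simp only [nl, lval, levF, expV_inv, expV_of]
        have : ((e, l) = (e', k + lev φ c w - c e')) ↔ (e = e' ∧ l - k = lev φ c w - c e) := by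
          constructor
          · intro h
            have h1 := (Prod.ext_iff.mp h).1
            have h2 := (Prod.ext_iff.mp h).2
            simp only at h1 h2
            subst h1
            refine ⟨rfl, ?_⟩
            linear_combination h2
          · rintro ⟨rfl, h2⟩
            apply Prod.ext
            · rfl
            · simp only
              linear_combination h2
        by_cases h : e = e' ∧ l - k = lev φ c w - c e
        · rw [if_pos (this.mpr h), if_pos h]
          push_cast
          ring
        · have h' : ¬ ((e, l) = (e', k + lev φ c w - c e')) := fun h'' => h (this.mp h'')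
          rw [if_neg h', if_neg h]
          push_cast
          ring
      · simp only [nl, lval, levF, expV_of]
        have : ((e, l) = (e', k + lev φ c w)) ↔ (e = e' ∧ l - k = lev φ c w) := by
          constructor
          · intro h
            have h1 := (Prod.ext_iff.mp h).1
            have h2 := (Prod.ext_iff.mp h).2
            simp only at h1 h2
            subst h1
            refine ⟨rfl, ?_⟩
            linear_combination h2
          · rintro ⟨rfl, h2⟩
            apply Prod.ext
            · rfl
            · simp only
              linear_combination h2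
        by_cases h : e = e' ∧ l - k = lev φ c w
        · rw [if_pos (this.mpr h), if_pos h]
          push_cast
          ring
        · have h' : ¬ ((e, l) = (e', k + lev φ c w)) := fun h'' => h (this.mp h'')
          rw [if_neg h', if_neg h]
          push_cast
          ring

omit hτ in
lemma levF_sum (w : List (Letter L E)) (e : E) :
    ∑ x, levF φ c w e x = ((Multiplicative.toAdd (expV (wval w)) e : ℤ) : ZMod p) := by
  induction w with
  | nil => simp [levF]
  | cons a w ih =>
    rw [wval_cons, expV_mul, Int.cast_add, ← ih]
    rcases a with a | ⟨e', b⟩
    · simp [levF, lval, expV_inl]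
    · cases b
      · simp only [levF, Finset.sum_add_distrib, lval, expV_inv, expV_of]
        rw [add_comm]
        congr 1
        by_cases h : e = e'
        · simp [h]
        · simp [h]
      · simp only [levF, Finset.sum_add_distrib, lval, expV_of]
        rw [add_comm]
        congr 1
        by_cases h : e = e'
        · simp [h]
        · simp [h]

/-- the coefficient part of the level of a word -/
def cf (φ : L →* Multiplicative (ZMod p)) : List (Letter L E) → ZMod p
  | [] => 0
  | .inl l :: w => Multiplicative.toAdd (φ l) + cf φ w
  | .inr _ :: w => cf φ w

lemma lev_eq_cf [Fintype E] (w : List (Letter L E)) :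
    lev φ c w = cf φ w + ∑ e, ((Multiplicative.toAdd (expV (wval w)) e : ℤ) : ZMod p) * c e := by
  induction w with
  | nil => simp [cf]
  | cons a w ih =>
    rw [lev_cons, ih, wval_cons]
    simp only [expV_mul, Int.cast_add, add_mul, Finset.sum_add_distrib]
    rcases a with a | ⟨e', b⟩
    · simp [adv, cf, lval, expV_inl, add_assoc]
    · cases b
      · simp only [adv, cf, lval, expV_inv, expV_of]
        have : ∑ e, ((-(if e = e' then (1 : ℤ) else 0) : ℤ) : ZMod p) * c e = - c e' := by
          rw [Finset.sum_eq_single e']
          · simp
          · intro b _ hb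
            simp [hb]
          · simp
        rw [this]
        ring
      · simp only [adv, cf, lval, expV_of]
        have : ∑ e, (((if e = e' then (1 : ℤ) else 0) : ℤ) : ZMod p) * c e = c e' := by
          rw [Finset.sum_eq_single e']
          · simp
          · intro b _ hb
            simp [hb]
          · simp
        rw [this]
        ring

variable {I : Type} [Fintype I] [Fintype E] [DecidableEq I]

/-- the level matrix has a right inverse if the old matrix does -/
lemma newR_rows (R : I → List (Letter L E)) (B : Matrix E I (ZMod p))
    (hB : rowsMat p R * B = 1) :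
    ∃ B' : Matrix (E × ZMod p) (I × ZMod p) (ZMod p), rowsMat p (newR c τ hτ R) * B' = 1 := by
  have h1 : (Matrix.of fun i e => ∑ x, levF φ c (R i) e x) * B = 1 := by
    rw [← hB]
    congr 1
    ext i e
    simp only [Matrix.of_apply, rowsMat]
    exact levF_sum c (R i) e
  obtain ⟨B', hB'⟩ := rowstep p (fun i e x => levF φ c (R i) e x) B h1
  refine ⟨B', ?_⟩
  rw [← hB']
  congr 1
  ext ⟨i, k⟩ ⟨e, l⟩
  simp only [rowsMat, Matrix.of_apply, newR, exp_psi]

end steprows

end Vale.Agent.Lib.P174
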