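import Mathlib
import Vale.Agent.Lib.P174.Rows

open scoped Classical

namespace Vale.Agent.Lib.P174

universe u

section transfer

variable {C : Type u} [Group C] {E I : Type} (Lb : Subgroup C)

/-- retraction to the subgroup, trivial outside it -/
noncomputable def ret (c : C) : Lb := if h : c ∈ Lb then ⟨c, h⟩ else 1

lemma ret_coe {c : C} (h : c ∈ Lb) : ((ret Lb c : Lb) : C) = c := by simp [ret, h]

lemma ret_one : ret Lb (1 : C) = 1 := by
  apply Subtype.ext
  rw [ret_coe Lb Lb.one_mem]
  rfl

/-- retraction on letters -/
noncomputable def lmap : Letter C E → Letter Lb E := Sum.map (ret Lb) id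

/-- the inclusion of free products -/
abbrev jmap : Monoid.Coprod Lb (FreeGroup E) →* Monoid.Coprod C (FreeGroup E) :=
  Monoid.Coprod.map Lb.subtype (MonoidHom.id _)

lemma jmap_lval (l : Letter C E) (h : ∀ c, l = Sum.inl c → c ∈ Lb) :
    jmap Lb (lval (lmap Lb l)) = lval l := by
  rcases l with c | ⟨e, b⟩
  · simp [lmap, lval, ret_coe Lb (h c rfl)]
  · cases b <;> simp [lmap, lval]

lemma jmap_wval (w : List (Letter C E)) (h : ∀ c, (Sum.inl c : Letter C E) ∈ w → c ∈ Lb) :
    jmap Lb (wval (w.map (lmap Lb))) = wval w := by
  induction w with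
  | nil => simp
  | cons l w ih =>
    rw [List.map_cons, wval_cons, wval_cons, map_mul, ih (fun c hc => h c (List.mem_cons_of_mem _ hc)),
      jmap_lval Lb l (fun c hc => h c (by simp [hc]))]

lemma lcnt_lmap (l : Letter C E) : lcnt (lmap Lb l) ≤ lcnt l := by
  rcases l with c | ⟨e, b⟩
  · by_cases h : c = 1
    · subst h
      simp [lmap, lcnt, ret_one]
    · simp only [lmap, Sum.map_inl, lcnt, h, if_false]
      split_ifs <;> omega
  · simp [lmap, lcnt]

lemma cnt_lmap (w : List (Letter C E)) : cnt (w.map (lmap Lb)) ≤ cnt w := by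
  induction w with
  | nil => simp
  | cons l w ih =>
    simp only [List.map_cons, cnt_cons]
    exact add_le_add (lcnt_lmap Lb l) ih

lemma expV_wval_lmap (w : List (Letter C E)) (e : E) :
    Multiplicative.toAdd (expV (wval (w.map (lmap Lb)))) e
      = Multiplicative.toAdd (expV (wval w)) e := by
  induction w with
  | nil => simp
  | cons l w ih =>
    rw [List.map_cons, wval_cons, wval_cons, expV_mul, expV_mul, ih]
    rcases l with c | ⟨e', b⟩
    · simp [lmap, lval, expV_inl]
    · cases b <;> simp [lmap, lval, expV_of]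

lemma rowsMat_lmap (p : ℕ) (R : I → List (Letter C E)) :
    rowsMat p (fun i => (R i).map (lmap Lb)) = rowsMat p R := by
  ext i e
  simp only [rowsMat, Matrix.of_apply, expV_wval_lmap]

/-- retraction on terms -/
noncomputable def tmap (t : Term C E I) : Term Lb E I := (t.1.map (lmap Lb), t.2)

lemma jmap_eval (R : I → List (Letter C E)) (T : List (Term C E I))
    (h : ∀ t ∈ T, ∀ c, (Sum.inl c : Letter C E) ∈ t.1 ∨ (Sum.inl c : Letter C E) ∈ R t.2.1 → c ∈ Lb) :
    jmap Lb (eval (fun i => (R i).map (lmap Lb)) (T.map (tmap Lb))) = eval R T := by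
  induction T with
  | nil => simp [eval]
  | cons t T ih =>
    have h1 : eval R (t :: T) = tval R t * eval R T := by simp [eval]
    have h2 : eval (fun i => (R i).map (lmap Lb)) ((t :: T).map (tmap Lb))
        = tval (fun i => (R i).map (lmap Lb)) (tmap Lb t)
          * eval (fun i => (R i).map (lmap Lb)) (T.map (tmap Lb)) := by simp [eval]
    rw [h1, h2, map_mul, ih (fun t' ht' => h t' (List.mem_cons_of_mem _ ht'))]
    congr 1
    have ht := h t (by simp)
    have hu := jmap_wval Lb t.1 (fun c hc => ht c (Or.inl hc))
    have hr := jmap_wval Lb (R t.2.1) (fun c hc => ht c (Or.inr hc))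
    rcases t with ⟨u, i, s⟩
    simp only at hu hr
    cases s
    · simp [tval, tmap, hu, hr]
    · simp [tval, tmap, hu, hr]

lemma omega_tmap_le (R : I → List (Letter C E)) (T : List (Term C E I)) :
    omega (fun i => (R i).map (lmap Lb)) (T.map (tmap Lb)) ≤ omega R T := by
  induction T with
  | nil => simp [omega]
  | cons t T ih =>
    simp only [omega, List.map_cons, List.sum_cons, tmap] at ih ⊢
    exact add_le_add (add_le_add (cnt_lmap Lb _) (cnt_lmap Lb _)) ih

end transfer

section closure

variable {C : Type u} [Group C] {E I : Type}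

lemma tval_mem (R : I → List (Letter C E)) (t : Term C E I) :
    tval R t ∈ Subgroup.normalClosure (Set.range fun i => wval (R i)) := by
  have hr : wval (R t.2.1) ∈ Subgroup.normalClosure (Set.range fun i => wval (R i)) :=
    Subgroup.subset_normalClosure ⟨t.2.1, rfl⟩
  simp only [tval]
  apply (Subgroup.normalClosure_normal).conj_mem
  split_ifs
  · exact hr
  · exact inv_mem hr

lemma eval_mem (R : I → List (Letter C E)) (T : List (Term C E I)) :
    eval R T ∈ Subgroup.normalClosure (Set.range fun i => wval (R i)) := by
  induction T with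
  | nil => simp [eval, one_mem]
  | cons t T ih =>
    have h1 : eval R (t :: T) = tval R t * eval R T := by simp [eval]
    rw [h1]
    exact mul_mem (tval_mem R t) ih

end closure

section linalg

lemma rank_of_rightInverse {K : Type*} [Field K] {m n : Type} [Fintype m] [Fintype n]
    [DecidableEq m]
    (A : Matrix m n K) (B : Matrix n m K) (h : A * B = 1) : A.rank = Fintype.card m := by
  apply le_antisymm (Matrix.rank_le_card_height A)
  calc Fintype.card m = (1 : Matrix m m K).rank := (Matrix.rank_one).symm
    _ = (A * B).rank := by rw [h]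
    _ ≤ A.rank := Matrix.rank_mul_le_left A B

lemma rightInverse_of_rank {K : Type*} [Field K] {m n : Type} [Fintype m] [Fintype n]
    [DecidableEq m]
    (A : Matrix m n K) (h : A.rank = Fintype.card m) : ∃ B : Matrix n m K, A * B = 1 := by
  have h1 : LinearMap.range A.mulVecLin = ⊤ := by
    apply Submodule.eq_top_of_finrank_eq
    rw [Module.finrank_fintype_fun_eq_card]
    exact h
  have h2 : ∀ j : m, ∃ v : n → K, A.mulVec v = Pi.single j 1 := by
    intro j
    have : (Pi.single j 1 : m → K) ∈ LinearMap.range A.mulVecLin := by rw [h1]; trivial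
    obtain ⟨v, hv⟩ := this
    exact ⟨v, hv⟩
  choose v hv using h2
  refine ⟨Matrix.of fun e j => v j e, ?_⟩
  ext i j
  have := congrFun (hv j) i
  simp only [Matrix.mulVec, dotProduct] at this
  simp only [Matrix.mul_apply, Matrix.of_apply]
  rw [this, Matrix.one_apply]
  simp [Pi.single_apply]

end linalg

section bridge

variable {A : Type u} [Group A] {E : Type}

lemma toAdd_mul_apply {ι : Type} (x y : Multiplicative (ι → ℤ)) (j : ι) :
    Multiplicative.toAdd (x * y) j = Multiplicative.toAdd x j + Multiplicative.toAdd y j := rfl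

lemma toAdd_inv_apply {ι : Type} (x : Multiplicative (ι → ℤ)) (j : ι) :
    Multiplicative.toAdd x⁻¹ j = - Multiplicative.toAdd x j := rfl

lemma exponentSum_map {n : ℕ} (e : E ≃ Fin n)
    (x : Monoid.Coprod A (FreeGroup E)) (j : Fin n) :
    Multiplicative.toAdd (exponentSum A n
      (Monoid.Coprod.map (MonoidHom.id A) (FreeGroup.map e) x)) j
      = Multiplicative.toAdd (expV x) (e.symm j) := by
  induction x using Monoid.Coprod.induction_on with
  | inl a => simp [exponentSum, expV]
  | inr f =>
    induction f using FreeGroup.induction_on with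
    | C1 => simp
    | of e' =>
      simp only [Monoid.Coprod.map_apply_inr, FreeGroup.map.of, exponentSum, expV,
        Monoid.Coprod.lift_apply_inr, FreeGroup.lift_apply_of, toAdd_ofAdd]
      by_cases h : j = e e'
      · subst h
        simp
      · have : e.symm j ≠ e' := fun h' => h (by rw [← h']; simp)
        simp [h, this]
    | inv_of e' ih =>
      simp only [map_inv, toAdd_inv_apply, ih]
    | mul a b ha hb =>
      have : (Monoid.Coprod.inr (a * b) : Monoid.Coprod A (FreeGroup E))
          = Monoid.Coprod.inr a * Monoid.Coprod.inr b := by simp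
      simp only [this, map_mul, toAdd_mul_apply, ha, hb]
  | mul a b ha hb =>
    simp only [map_mul, toAdd_mul_apply, ha, hb]

lemma exponentSum_eq_expV {n : ℕ} (x : Monoid.Coprod A (FreeGroup (Fin n))) (j : Fin n) :
    Multiplicative.toAdd (exponentSum A n x) j = Multiplicative.toAdd (expV x) j := by
  have h := exponentSum_map (Equiv.refl (Fin n)) x j
  have h2 : Monoid.Coprod.map (MonoidHom.id A) (FreeGroup.map (Equiv.refl (Fin n))) x = x := by
    have : FreeGroup.map (Equiv.refl (Fin n)) = MonoidHom.id _ := by
      ext a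
      simp
    rw [this, Monoid.Coprod.map_id_id]
    rfl
  rw [h2] at h
  simpa using h

lemma isSolvableOver_iff {m n : ℕ} (w : Fin m → Monoid.Coprod A (FreeGroup (Fin n))) :
    IsSolvableOver w ↔
      ∀ x : A, Monoid.Coprod.inl x ∈ Subgroup.normalClosure (Set.range w) → x = 1 := by
  unfold IsSolvableOver
  rw [injective_iff_map_eq_one]
  constructor
  · intro h x hx
    apply h
    simpa [QuotientGroup.eq_one_iff] using hx
  · intro h x hx
    apply h
    simpa [QuotientGroup.eq_one_iff] using hx

variable {I : Type} [Fintype E] [Fintype I] [DecidableEq I] {p : ℕ} [Fact p.Prime]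

lemma howie_general (hA : HowieModP p A) (R : I → List (Letter A E))
    (B : Matrix E I (ZMod p)) (hB : rowsMat p R * B = 1) (x : A)
    (hx : Monoid.Coprod.inl x ∈ Subgroup.normalClosure (Set.range fun i => wval (R i))) :
    x = 1 := by
  let eE := Fintype.equivFin E
  let eI := Fintype.equivFin I
  let mapV : Monoid.Coprod A (FreeGroup E) →* Monoid.Coprod A (FreeGroup (Fin (Fintype.card E))) :=
    Monoid.Coprod.map (MonoidHom.id A) (FreeGroup.map eE)
  let w : Fin (Fintype.card I) → Monoid.Coprod A (FreeGroup (Fin (Fintype.card E))) :=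
    fun j => mapV (wval (R (eI.symm j)))
  have hw : ((exponentMatrix w).map (Int.cast : ℤ → ZMod p))
      = (rowsMat p R).submatrix eI.symm eE.symm := by
    ext i j
    simp only [Matrix.map_apply, exponentMatrix, Matrix.of_apply, Matrix.submatrix_apply, rowsMat, w]
    rw [exponentSum_map]
  have hrank : ((exponentMatrix w).map (Int.cast : ℤ → ZMod p)).rank = Fintype.card I := by
    rw [hw]
    have := rank_of_rightInverse ((rowsMat p R).submatrix eI.symm eE.symm)
      (B.submatrix eE.symm eI.symm) (by rw [Matrix.submatrix_mul_equiv, hB,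
        Matrix.submatrix_one_equiv])
    simpa using this
  have hsolv := hA _ _ w hrank
  rw [isSolvableOver_iff] at hsolv
  apply hsolv
  have h1 : Subgroup.normalClosure (Set.range fun i => wval (R i))
      ≤ (Subgroup.normalClosure (Set.range w)).comap mapV := by
    apply Subgroup.normalClosure_le_normal
    rintro _ ⟨i, rfl⟩
    refine Subgroup.subset_normalClosure ⟨eI i, ?_⟩
    simp [w]
  have := h1 hx
  simpa [mapV] using this

end bridge

/-- every finitely generated subgroup with no nontrivial homomorphism to `ℤ/p` has the mod `p`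
Howie property -/
def PGood (p : ℕ) [Fact p.Prime] (C : Type u) [Group C] : Prop :=
  ∀ L : Subgroup C, L.FG → (∀ f : L →* Multiplicative (ZMod p), f = 1) → HowieModP p L

section reductions

variable {p : ℕ} [Fact p.Prime]

lemma howieModP_of_injective {A B : Type u} [Group A] [Group B] (i : A →* B)
    (hi : Function.Injective i) (hB : HowieModP p B) : HowieModP p A := by
  intro m n w hw
  let mp : Monoid.Coprod A (FreeGroup (Fin n)) →* Monoid.Coprod B (FreeGroup (Fin n)) :=
    Monoid.Coprod.map i (MonoidHom.id _)
  have hexp : ∀ (x : Monoid.Coprod A (FreeGroup (Fin n))), exponentSum B n (mp x) = exponentSum A n x := by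
    intro x
    have : (exponentSum B n).comp mp = exponentSum A n := by
      apply Monoid.Coprod.hom_ext
      · ext a
        simp [exponentSum, mp]
      · apply FreeGroup.ext_hom
        intro a
        simp [exponentSum, mp]
    exact DFunLike.congr_fun this x
  have h1 : exponentMatrix (fun j => mp (w j)) = exponentMatrix w := by
    ext a b
    simp [exponentMatrix, hexp]
  have hsolv := hB m n (fun j => mp (w j)) (by rw [h1]; exact hw)
  rw [isSolvableOver_iff] at hsolv ⊢
  intro x hx
  have h2 : Subgroup.normalClosure (Set.range w)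
      ≤ (Subgroup.normalClosure (Set.range fun j => mp (w j))).comap mp := by
    apply Subgroup.normalClosure_le_normal
    rintro _ ⟨j, rfl⟩
    exact Subgroup.subset_normalClosure ⟨j, rfl⟩
  have h3 := hsolv (i x) (by simpa [mp] using h2 hx)
  exact hi (by simpa using h3)

lemma PGood.of_injective {C' C : Type u} [Group C'] [Group C] (j : C' →* C)
    (hj : Function.Injective j) (hC : PGood p C) : PGood p C' := by
  intro L hL hf
  have h1 : (L.map j).FG := by
    obtain ⟨S, hS⟩ := hL
    refine ⟨S.image j, ?_⟩
    rw [Finset.coe_image, ← MonoidHom.map_closure, hS]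
  let e : L ≃* L.map j := L.equivMapOfInjective j hj
  have h2 : ∀ f : (L.map j) →* Multiplicative (ZMod p), f = 1 := by
    intro f
    have := hf (f.comp e.toMonoidHom)
    ext x
    have h3 := DFunLike.congr_fun this (e.symm x)
    simpa using h3
  exact howieModP_of_injective e.toMonoidHom e.injective (hC _ h1 h2)

end reductions

/-- the main induction -/
theorem core (p : ℕ) [Fact p.Prime] : ∀ (n : ℕ) (C : Type u) [Group C], PGood p C →
    ∀ (E I : Type) [Fintype E] [Fintype I] [DecidableEq I] (R : I → List (Letter C E))
      (B : Matrix E I (ZMod p)), rowsMat p R * B = 1 →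
      ∀ (T : List (Term C E I)) (g : C), eval R T = Monoid.Coprod.inl g → omega R T = n → g = 1 := by
  intro n
  induction n using Nat.strong_induction_on with
  | _ n ih =>
  intro C _ hC E I _ _ _ R B hB T g hT hn
  -- the letters used
  let allW : List (Letter C E) := T.flatMap fun t => t.1 ++ R t.2.1
  let S : Set C := {c | (Sum.inl c : Letter C E) ∈ allW}
  have hSfin : S.Finite :=
    (List.finite_toSet allW).preimage (Sum.inl_injective.injOn)
  let Lb : Subgroup C := Subgroup.closure S
  have hLbFG : Lb.FG := (Subgroup.fg_iff _).mpr ⟨S, rfl, hSfin⟩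
  have hS : ∀ t ∈ T, ∀ c, (Sum.inl c : Letter C E) ∈ t.1 ∨ (Sum.inl c : Letter C E) ∈ R t.2.1 → c ∈ S := by
    intro t ht c hc
    simp only [S, Set.mem_ofPred_eq, allW, List.mem_flatMap, List.mem_append]
    exact ⟨t, ht, hc⟩
  have hS' : ∀ c ∈ S, ∃ t ∈ T, (Sum.inl c : Letter C E) ∈ t.1 ∨ (Sum.inl c : Letter C E) ∈ R t.2.1 := by
    intro c hc
    simp only [S, Set.mem_ofPred_eq, allW, List.mem_flatMap, List.mem_append] at hc
    exact hc
  -- the restricted system
  let RL : I → List (Letter Lb E) := fun i => (R i).map (lmap Lb)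
  let TL : List (Term Lb E I) := T.map (tmap Lb)
  have hJ : jmap Lb (eval RL TL) = Monoid.Coprod.inl g := by
    rw [← hT]
    exact jmap_eval Lb R T (fun t ht c hc => Subgroup.subset_closure (hS t ht c hc))
  let gL : Lb := Monoid.Coprod.fst (eval RL TL)
  have hfst : ∀ x : Monoid.Coprod Lb (FreeGroup E),
      Monoid.Coprod.fst (jmap Lb x) = ((Monoid.Coprod.fst x : Lb) : C) := by
    intro x
    induction x using Monoid.Coprod.induction_on with
    | inl a => simp
    | inr f => simp
    | mul a b ha hb => simp [ha, hb]
  have hgL : (gL : C) = g := by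
    have := hfst (eval RL TL)
    rw [hJ] at this
    simpa using this.symm
  have hTL : eval RL TL = Monoid.Coprod.inl gL := by
    apply coprod_map_injective Lb
    rw [hJ]
    simp [hgL]
  have hBL : rowsMat p RL * B = 1 := by
    rw [show rowsMat p RL = rowsMat p R from rowsMat_lmap Lb p R]
    exact hB
  have hom : omega RL TL ≤ n := by
    rw [← hn]
    exact omega_tmap_le Lb R T
  by_cases hterm : ∀ f : Lb →* Multiplicative (ZMod p), f = 1
  · -- terminal case
    have hH := hC Lb hLbFG hterm
    have := howie_general hH RL B hBL gL (by rw [← hTL]; exact eval_mem RL TL)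
    rw [← hgL, this]
    rfl
  · -- induction step
    push Not at hterm
    obtain ⟨f, hf⟩ := hterm
    -- a generator on which f is nontrivial
    have hgen : ∃ l0 : Lb, (l0 : C) ∈ S ∧ f l0 ≠ 1 := by
      by_contra hcon
      push Not at hcon
      apply hf
      ext ⟨x, hx⟩
      have : f ⟨x, hx⟩ = 1 := by
        induction hx using Subgroup.closure_induction with
        | mem y hy => exact hcon ⟨y, Subgroup.subset_closure hy⟩ hy
        | one => exact map_one f
        | mul a b ha hb iha ihb =>
          have : (⟨a * b, mul_mem ha hb⟩ : Lb) = ⟨a, ha⟩ * ⟨b, hb⟩ := rfl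
          rw [this, map_mul, iha, ihb, one_mul]
        | inv a ha iha =>
          have : (⟨a⁻¹, inv_mem ha⟩ : Lb) = (⟨a, ha⟩ : Lb)⁻¹ := rfl
          rw [this, map_inv, iha, inv_one]
      simpa using this
    obtain ⟨l0, hl0S, hl0⟩ := hgen
    let a : ZMod p := Multiplicative.toAdd (f l0)
    have ha : a ≠ 0 := by
      intro h
      apply hl0
      apply Multiplicative.toAdd.injective
      rw [toAdd_one]
      exact h
    have hl0ne : l0 ≠ 1 := by
      rintro rfl
      exact hl0 (map_one f)
    -- a section of f
    let τ₀ : ZMod p → Lb := fun k => l0 ^ (k / a).val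
    have hτ₀ : ∀ k, f (τ₀ k) = Multiplicative.ofAdd k := by
      intro k
      simp only [τ₀, map_pow]
      have h1 : (f l0) = Multiplicative.ofAdd a := rfl
      rw [h1, ← ofAdd_nsmul]
      congr 1
      rw [nsmul_eq_mul, ZMod.natCast_zmod_val, div_mul_cancel₀ _ ha]
    -- the levels of the variables
    let c : E → ZMod p := fun e => - ∑ i, B e i * cf f (RL i)
    have hlev : ∀ i, lev f c (RL i) = 0 := by
      intro i
      rw [lev_eq_cf]
      have h1 : ∑ e, ((Multiplicative.toAdd (expV (wval (RL i))) e : ℤ) : ZMod p) * c e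
          = - cf f (RL i) := by
        have h2 : ∑ e, ((Multiplicative.toAdd (expV (wval (RL i))) e : ℤ) : ZMod p) * c e
            = - ∑ j, (rowsMat p RL * B) i j * cf f (RL j) := by
          simp only [c, Matrix.mul_apply, rowsMat, Matrix.of_apply, Finset.sum_mul, mul_neg,
            Finset.mul_sum, Finset.sum_neg_distrib]
          congr 1
          rw [Finset.sum_comm]
          simp only [mul_assoc]
        rw [h2, hBL]
        simp [Matrix.one_apply]
      rw [h1]
      ring
    -- the occurrence of the letter
    have hocc : ∃ t ∈ TL, (Sum.inl l0 : Letter Lb E) ∈ t.1 ∨ (Sum.inl l0 : Letter Lb E) ∈ RL t.2.1 := by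
      obtain ⟨t, ht, hc⟩ := hS' _ hl0S
      have hret : ret Lb (l0 : C) = l0 := by
        apply Subtype.ext
        exact ret_coe Lb l0.2
      refine ⟨tmap Lb t, List.mem_map_of_mem ht, ?_⟩
      rcases hc with hc | hc
      · left
        simp only [tmap]
        rw [← hret]
        exact List.mem_map_of_mem (f := lmap Lb) hc
      · right
        simp only [tmap, RL]
        rw [← hret]
        exact List.mem_map_of_mem (f := lmap Lb) hc
    obtain ⟨k₀, hk₀⟩ := exists_level_expr c l0 hl0ne f RL TL hocc
    -- the section with the chosen letter trivial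
    let τ : ZMod p → Lb := Function.update τ₀ (k₀ + a) (l0 * τ₀ k₀)
    have hτ : ∀ k, f (τ k) = Multiplicative.ofAdd k := by
      intro k
      by_cases hk : k = k₀ + a
      · subst hk
        simp only [τ, Function.update_self, map_mul, hτ₀]
        apply Multiplicative.toAdd.injective
        simp only [toAdd_mul, toAdd_ofAdd]
        change a + k₀ = k₀ + a
        ring
      · simp only [τ, Function.update_of_ne hk, hτ₀]
    have hτk₀ : τ k₀ = τ₀ k₀ := by
      apply Function.update_of_ne
      intro h
      apply ha
      have : k₀ + a = k₀ + 0 := by rw [add_zero]; exact h.symm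
      exact add_left_cancel this
    have hs1 : stepS τ hτ k₀ l0 = 1 := by
      apply Subtype.ext
      simp only [stepS, Subgroup.coe_one]
      have : τ (k₀ + Multiplicative.toAdd (f l0)) = l0 * τ₀ k₀ := by
        change τ (k₀ + a) = _
        simp [τ]
      rw [this, hτk₀]
      simp
    obtain ⟨hg0, hval⟩ := step_value c τ hτ RL hlev TL gL hTL
    have hlt := hk₀ τ hτ hs1
    obtain ⟨B', hB'⟩ := newR_rows c τ hτ RL B hBL
    have hC' : PGood p f.ker :=
      PGood.of_injective (Lb.subtype.comp f.ker.subtype)
        (Lb.subtype_injective.comp f.ker.subtype_injective) hC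
    have hfinal := ih _ (lt_of_lt_of_le hlt hom) f.ker hC' (E × ZMod p) (I × ZMod p)
      (newR c τ hτ RL) B' hB' (TL.map (newT c τ hτ 0)) (stepS τ hτ 0 gL) hval rfl
    have h5 : ((stepS τ hτ 0 gL : f.ker) : Lb) = 1 := by rw [hfinal]; rfl
    simp only [stepS, hg0, add_zero] at h5
    have h6 : gL = 1 := by
      have h7 : (τ 0)⁻¹ * gL * τ 0 = 1 := h5
      have h8 : gL = τ 0 * ((τ 0)⁻¹ * gL * τ 0) * (τ 0)⁻¹ := by group
      rw [h8, h7]
      simp
    rw [← hgL, h6]
    rfl

end Vale.Agent.Lib.P174
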