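import Mathlib
import Vale.Agent.Lib.P174.Core

open scoped Classical

namespace Vale.Agent.Lib.P174

universe u

section top

variable {p : ℕ} [Fact p.Prime]

/-- the reduction theorem: if all finitely generated subgroups without a nontrivial homomorphism
to `ℤ/p` have the mod `p` Howie property, then so does the group -/
theorem howieModP_of_pGood {G : Type u} [Group G] (hG : PGood p G) : HowieModP p G := by
  intro m n w hw
  obtain ⟨B, hB⟩ := rightInverse_of_rank ((exponentMatrix w).map (Int.cast : ℤ → ZMod p))
    (by simpa using hw)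
  choose R hR using fun i => exists_word (w i)
  have hw' : (fun i => wval (R i)) = w := funext hR
  have hrows : rowsMat p R = (exponentMatrix w).map (Int.cast : ℤ → ZMod p) := by
    ext i j
    simp only [rowsMat, Matrix.of_apply, Matrix.map_apply, exponentMatrix, hR]
    rw [exponentSum_eq_expV]
  rw [isSolvableOver_iff]
  intro x hx
  rw [← hw'] at hx
  obtain ⟨T, hT⟩ := exists_expr R _ hx
  exact core p _ G hG (Fin n) (Fin m) R B (by rw [hrows]; exact hB) T x hT rfl

/-- a group all of whose nontrivial finitely generated subgroups have a nontrivial homomorphism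
to `ℤ/p` has the mod `p` Howie property -/
theorem howieModP_of_locally_p_indicable {G : Type u} [Group G]
    (hG : ∀ L : Subgroup G, L.FG → L ≠ ⊥ → ∃ f : L →* Multiplicative (ZMod p), f ≠ 1) :
    HowieModP p G := by
  apply howieModP_of_pGood
  intro L hL hf
  have hbot : L = ⊥ := by
    by_contra hne
    obtain ⟨f, hf'⟩ := hG L hL hne
    exact hf' (hf f)
  subst hbot
  intro m n w _
  rw [isSolvableOver_iff]
  intro x _
  exact Subsingleton.elim _ _

lemma rank_rat_of_rank_modp {m n : ℕ} (A : Matrix (Fin m) (Fin n) ℤ)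
    (h : (A.map (Int.cast : ℤ → ZMod p)).rank = m) :
    (A.map (Int.cast : ℤ → ℚ)).rank = m := by
  obtain ⟨Bb, hBb⟩ := rightInverse_of_rank (A.map (Int.cast : ℤ → ZMod p)) (by simpa using h)
  let B : Matrix (Fin n) (Fin m) ℤ := Matrix.of fun e i => ((Bb e i).val : ℤ)
  have hB : B.map (Int.cast : ℤ → ZMod p) = Bb := by
    ext e i
    simp [B]
  have h1 : (A * B).map (Int.castRingHom (ZMod p)) = 1 := by
    rw [Matrix.map_mul]
    have e1 : A.map (Int.castRingHom (ZMod p)) = A.map (Int.cast : ℤ → ZMod p) := rfl
    have e2 : B.map (Int.castRingHom (ZMod p)) = B.map (Int.cast : ℤ → ZMod p) := rfl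
    rw [e1, e2, hB, hBb]
  have hdet : (A * B).det ≠ 0 := by
    intro h0
    have h2 := RingHom.map_det (Int.castRingHom (ZMod p)) (A * B)
    have h3 : (Int.castRingHom (ZMod p)).mapMatrix (A * B) = 1 := h1
    rw [h3, Matrix.det_one, h0, map_zero] at h2
    exact zero_ne_one h2
  let MQ : Matrix (Fin m) (Fin m) ℚ := (A * B).map (Int.castRingHom ℚ)
  have hMQ : MQ.det ≠ 0 := by
    have h2 := RingHom.map_det (Int.castRingHom ℚ) (A * B)
    have h3 : (Int.castRingHom ℚ).mapMatrix (A * B) = MQ := rfl
    rw [h3] at h2
    rw [← h2]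
    simpa using hdet
  have hinv : MQ * MQ⁻¹ = 1 := Matrix.mul_nonsing_inv _ (isUnit_iff_ne_zero.mpr hMQ)
  have hfac : MQ = A.map (Int.cast : ℤ → ℚ) * B.map (Int.cast : ℤ → ℚ) := by
    simp only [MQ]
    rw [Matrix.map_mul]
    rfl
  have := rank_of_rightInverse (A.map (Int.cast : ℤ → ℚ)) (B.map (Int.cast : ℤ → ℚ) * MQ⁻¹)
    (by rw [← Matrix.mul_assoc, ← hfac, hinv])
  simpa using this

end top

lemma exists_prime_rank_modp {m n : ℕ} (A : Matrix (Fin m) (Fin n) ℤ)
    (h : (A.map (Int.cast : ℤ → ℚ)).rank = m) :
    ∃ p : ℕ, ∃ _ : Fact p.Prime, (A.map (Int.cast : ℤ → ZMod p)).rank = m := by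
  let AQ := A.map (Int.cast : ℤ → ℚ)
  have h1 : (AQ * AQ.transpose).rank = m := by
    rw [Matrix.rank_self_mul_transpose, h]
  obtain ⟨C, hC⟩ := rightInverse_of_rank (AQ * AQ.transpose) (by simpa using h1)
  have hdetQ : (AQ * AQ.transpose).det ≠ 0 := by
    intro h0
    have := congrArg Matrix.det hC
    rw [Matrix.det_mul, h0, zero_mul, Matrix.det_one] at this
    exact zero_ne_one this
  let d : ℤ := (A * A.transpose).det
  have hd : d ≠ 0 := by
    intro h0
    apply hdetQ
    have h2 := RingHom.map_det (Int.castRingHom ℚ) (A * A.transpose)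
    have h3 : (Int.castRingHom ℚ).mapMatrix (A * A.transpose) = AQ * AQ.transpose := by
      simp only [RingHom.mapMatrix_apply, Matrix.map_mul, AQ]
      rfl
    rw [h3] at h2
    rw [← h2]
    simp [d] at h0
    simp [h0]
  obtain ⟨p, hp1, hp2⟩ := Nat.exists_infinite_primes (d.natAbs + 1)
  have : Fact p.Prime := ⟨hp2⟩
  refine ⟨p, ⟨hp2⟩, ?_⟩
  have hdp : (d : ZMod p) ≠ 0 := by
    intro h0
    rw [ZMod.intCast_zmod_eq_zero_iff_dvd] at h0
    have h2 : p ∣ d.natAbs := by
      rw [← Int.natCast_dvd_natCast]
      simpa using h0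
    have h3 := Nat.le_of_dvd (Int.natAbs_pos.mpr hd) h2
    omega
  let AP := A.map (Int.cast : ℤ → ZMod p)
  have hdetP : (AP * AP.transpose).det ≠ 0 := by
    have h2 := RingHom.map_det (Int.castRingHom (ZMod p)) (A * A.transpose)
    have h3 : (Int.castRingHom (ZMod p)).mapMatrix (A * A.transpose) = AP * AP.transpose := by
      simp only [RingHom.mapMatrix_apply, Matrix.map_mul, AP]
      rfl
    rw [h3] at h2
    rw [← h2]
    simpa [d] using hdp
  have hinv : (AP * AP.transpose) * (AP * AP.transpose)⁻¹ = 1 :=
    Matrix.mul_nonsing_inv _ (isUnit_iff_ne_zero.mpr hdetP)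
  have := rank_of_rightInverse AP (AP.transpose * (AP * AP.transpose)⁻¹)
    (by rw [← Matrix.mul_assoc, hinv])
  simpa using this

/-- Howie's property of a group follows from that of its finitely generated subgroups admitting
no nontrivial homomorphism to `ℤ` -/
theorem howie_of_subgroups {G : Type u} [Group G]
    (hG : ∀ L : Subgroup G, L.FG → (∀ f : L →* Multiplicative ℤ, f = 1) → HowieProperty L) :
    HowieProperty G := by
  intro m n w hw
  obtain ⟨p, hp, hrank⟩ := exists_prime_rank_modp (exponentMatrix w) hw
  refine howieModP_of_pGood (p := p) ?_ m n w hrank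
  intro L hL hf
  have hLp : ∀ f : L →* Multiplicative ℤ, f = 1 := by
    intro f
    by_contra hne
    -- a nonzero homomorphism to the integers gives a nonzero homomorphism modulo p
    have hex : ∃ x : L, f x ≠ 1 := by
      by_contra hcon
      push Not at hcon
      exact hne (MonoidHom.ext hcon)
    obtain ⟨x, hx⟩ := hex
    let a : ℤ := Multiplicative.toAdd (f x)
    have ha : a ≠ 0 := by
      intro h0
      apply hx
      apply Multiplicative.toAdd.injective
      rw [toAdd_one]
      exact h0
    -- divide by the generator of the image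
    let H : AddSubgroup ℤ := (MonoidHom.toAdditive f).range
    have hHgen : ∃ d : ℤ, d ≠ 0 ∧ ∀ y : L, d ∣ Multiplicative.toAdd (f y) ∧ ∃ y : L,
        Multiplicative.toAdd (f y) = d := by
      have hbd := Int.subgroup_cyclic H
      obtain ⟨d, hd⟩ := hbd
      refine ⟨d, ?_, fun y => ⟨?_, ?_⟩⟩
      · rintro rfl
        have : a ∈ H := ⟨Additive.ofMul x, rfl⟩
        rw [hd] at this
        simp [AddSubgroup.mem_closure_singleton] at this
        exact ha this.symm
      · have : Multiplicative.toAdd (f y) ∈ H := ⟨Additive.ofMul y, rfl⟩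
        rw [hd, AddSubgroup.mem_closure_singleton] at this
        obtain ⟨k, hk⟩ := this
        exact ⟨k, by rw [← hk]; simp [mul_comm]⟩
      · have : d ∈ H := by rw [hd]; exact AddSubgroup.mem_closure_singleton_self d
        obtain ⟨z, hz⟩ := this
        exact ⟨Additive.toMul z, hz⟩
    obtain ⟨d, hd0, hd⟩ := hHgen
    obtain ⟨y0, hy0⟩ := (hd x).2
    choose q hq using fun y => (hd y).1
    let g : L →* Multiplicative (ZMod p) :=
      { toFun := fun y => Multiplicative.ofAdd ((q y : ℤ) : ZMod p)
        map_one' := by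
          have h1 : q 1 = 0 := by
            have h2 := hq 1
            simp at h2
            exact h2.resolve_left hd0
          simp [h1]
        map_mul' := fun y z => by
          have h1 : q (y * z) = q y + q z := by
            have h2 := hq (y * z)
            rw [map_mul, toAdd_mul, hq y, hq z, ← mul_add] at h2
            exact (mul_left_cancel₀ hd0 h2).symm
          simp [h1, ofAdd_add] }
    have hg := hf g
    have h3 : q y0 = 1 := by
      have h4 := hq y0
      rw [hy0] at h4
      have : d * q y0 = d * 1 := by rw [← h4]; ring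
      exact mul_left_cancel₀ hd0 this
    have h5 : g y0 = 1 := by rw [hg]; rfl
    have h6 : ((q y0 : ℤ) : ZMod p) = 0 := h5
    rw [h3] at h6
    simp at h6
  have hNp : HowieModP p L := by
    intro m' n' w' hw'
    exact hG L hL hLp m' n' w' (rank_rat_of_rank_modp (p := p) _ hw')
  exact hNp

/-- closure of Howie's property under extensions with locally indicable quotient -/
theorem howie_of_extension {G : Type u} [Group G] (N : Subgroup G) [N.Normal]
    (hN : HowieProperty N) (hQ : IsLocallyIndicable (G ⧸ N)) : HowieProperty G := by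
  intro m n w hw
  obtain ⟨p, hp, hrank⟩ := exists_prime_rank_modp (exponentMatrix w) hw
  refine howieModP_of_pGood (p := p) ?_ m n w hrank
  intro L hL hf
  have hLN : L ≤ N := by
    by_contra hcon
    obtain ⟨x, hxL, hxN⟩ := SetLike.not_le_iff_exists.mp hcon
    let qq : G →* G ⧸ N := QuotientGroup.mk' N
    let S : Subgroup (G ⧸ N) := L.map qq
    have hS : S.FG := by
      obtain ⟨F, hF⟩ := hL
      refine ⟨F.image qq, ?_⟩
      rw [Finset.coe_image, ← MonoidHom.map_closure, hF]
    have hSne : S ≠ ⊥ := by
      intro h0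
      have h1 : qq x ∈ S := Subgroup.mem_map_of_mem qq hxL
      rw [h0, Subgroup.mem_bot] at h1
      apply hxN
      exact (QuotientGroup.eq_one_iff x).mp h1
    obtain ⟨f, hfs⟩ := hQ S hS hSne
    let red : Multiplicative ℤ →* Multiplicative (ZMod p) :=
      AddMonoidHom.toMultiplicative (Int.castAddHom (ZMod p))
    let h : L →* Multiplicative (ZMod p) := red.comp (f.comp (qq.subgroupMap L))
    have h1 := hf h
    obtain ⟨s, hs⟩ := hfs (Multiplicative.ofAdd 1)
    obtain ⟨l, hl⟩ := qq.subgroupMap_surjective L s
    have h2 : h l = 1 := by rw [h1]; rfl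
    simp only [h, MonoidHom.comp_apply, hl, hs, red] at h2
    have h3 : (1 : ZMod p) = 0 := by
      have := congrArg Multiplicative.toAdd h2
      simp at this
    exact one_ne_zero h3
  have hNp : HowieModP p N := by
    intro m' n' w' hw'
    exact hN m' n' w' (rank_rat_of_rank_modp (p := p) _ hw')
  exact howieModP_of_injective (Subgroup.inclusion hLN) (Subgroup.inclusion_injective hLN) hNp

end Vale.Agent.Lib.P174
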